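import Vale.Agent.P143.H71.Drift
import Vale.Agent.P143.H726.Defs

/-!
Bridge: infinite matrices `Q` with `Q` and `1 - Q` positive semidefinite (on finitely supported
vectors) are matrices of positive contractions of `ℓ²(X)`.
-/

namespace Vale.Agent.P143.H300

open Filter Topology MeasureTheory
open scoped InnerProductSpace ComplexConjugate ENNReal NNReal ComplexOrder Matrix
open H71

variable {X : Type*}

/-! ### finite matrices -/

theorem psd_one_sub_sq {n : Type*} [Fintype n] [DecidableEq n] {A : Matrix n n ℂ}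
    (h0 : A.PosSemidef) (h1 : (1 - A).PosSemidef) : (1 - A * A).PosSemidef := by
  have hA : Aᴴ = A := h0.1
  have hB : (1 - A)ᴴ = 1 - A := h1.1
  have e1 : (Aᴴ * (1 - A) * A).PosSemidef := h1.conjTranspose_mul_mul_same A
  have e2 : ((1 - A)ᴴ * A * (1 - A)).PosSemidef := h0.conjTranspose_mul_mul_same (1 - A)
  rw [hA] at e1
  rw [hB] at e2
  have e3 := (e1.add e2).add h1
  have : A * (1 - A) * A + (1 - A) * A * (1 - A) + (1 - A) = 1 - A * A := by
    noncomm_ring
  rwa [this] at e3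

theorem star_dotProduct_self {n : Type*} [Fintype n] (v : n → ℂ) :
    star v ⬝ᵥ v = ((∑ i, ‖v i‖ ^ 2 : ℝ) : ℂ) := by
  simp only [dotProduct, Pi.star_apply, Complex.star_def]
  rw [Complex.ofReal_sum]
  refine Finset.sum_congr rfl fun i _ => ?_
  rw [← Complex.normSq_eq_conj_mul_self, Complex.normSq_eq_norm_sq]

theorem sum_norm_sq_mulVec_le {n : Type*} [Fintype n] [DecidableEq n] {A : Matrix n n ℂ}
    (h0 : A.PosSemidef) (h1 : (1 - A).PosSemidef) (c : n → ℂ) :
    ∑ i, ‖(A *ᵥ c) i‖ ^ 2 ≤ ∑ i, ‖c i‖ ^ 2 := by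
  have hA : Aᴴ = A := h0.1
  have h := (psd_one_sub_sq h0 h1).dotProduct_mulVec_nonneg c
  have h2 : star c ⬝ᵥ ((1 - A * A) *ᵥ c) =
      ((∑ i, ‖c i‖ ^ 2 : ℝ) : ℂ) - ((∑ i, ‖(A *ᵥ c) i‖ ^ 2 : ℝ) : ℂ) := by
    rw [← star_dotProduct_self, ← star_dotProduct_self, Matrix.sub_mulVec, Matrix.one_mulVec,
      dotProduct_sub]
    congr 1
    rw [Matrix.star_mulVec, ← Matrix.dotProduct_mulVec, hA, Matrix.mulVec_mulVec]
  rw [h2, ← Complex.ofReal_sub, Complex.zero_le_real] at h
  linarith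

/-! ### finite sections of an infinite matrix -/

variable [DecidableEq X] {Q : Matrix X X ℂ}

theorem sec_le (h0 : Q.PosSemidef) (h1 : (1 - Q).PosSemidef) (F : Finset X) (c : X → ℂ) :
    ∑ i ∈ F, ‖∑ j ∈ F, Q i j * c j‖ ^ 2 ≤ ∑ j ∈ F, ‖c j‖ ^ 2 := by
  have a0 := h0.submatrix (fun x : F => (x : X))
  have a1 := h1.submatrix (fun x : F => (x : X))
  have e : (1 - Q).submatrix (fun x : F => (x : X)) (fun x : F => (x : X)) =
      1 - Q.submatrix (fun x : F => (x : X)) (fun x : F => (x : X)) := by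
    ext i j
    rw [Matrix.submatrix_apply, Matrix.sub_apply, Matrix.sub_apply, Matrix.submatrix_apply,
      Matrix.one_apply, Matrix.one_apply]
    by_cases hij : i = j
    · rw [if_pos hij, if_pos (congrArg _ hij)]
    · rw [if_neg hij, if_neg fun h => hij (Subtype.ext h)]
  rw [e] at a1
  have h := sum_norm_sq_mulVec_le a0 a1 (fun x : F => c x)
  rw [← Finset.sum_coe_sort F, ← Finset.sum_coe_sort F (fun j => ‖c j‖ ^ 2)]
  refine le_trans (le_of_eq ?_) h
  refine Finset.sum_congr rfl fun i _ => ?_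
  rw [← Finset.sum_coe_sort F]
  rfl

theorem sec_le' (h0 : Q.PosSemidef) (h1 : (1 - Q).PosSemidef) (G F : Finset X) (c : X → ℂ) :
    ∑ i ∈ G, ‖∑ j ∈ F, Q i j * c j‖ ^ 2 ≤ ∑ j ∈ F, ‖c j‖ ^ 2 := by
  have h := sec_le h0 h1 (G ∪ F) (fun j => if j ∈ F then c j else 0)
  have e1 : ∀ i, ∑ j ∈ G ∪ F, Q i j * (if j ∈ F then c j else 0) = ∑ j ∈ F, Q i j * c j := by
    intro i
    rw [← Finset.sum_subset (Finset.subset_union_right : F ⊆ G ∪ F)]
    · exact Finset.sum_congr rfl fun j hj => by rw [if_pos hj]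
    · intro j _ hj
      rw [if_neg hj, mul_zero]
  have e2 : ∑ j ∈ G ∪ F, ‖(if j ∈ F then c j else 0 : ℂ)‖ ^ 2 = ∑ j ∈ F, ‖c j‖ ^ 2 := by
    rw [← Finset.sum_subset (Finset.subset_union_right : F ⊆ G ∪ F)]
    · exact Finset.sum_congr rfl fun j hj => by rw [if_pos hj]
    · intro j _ hj
      rw [if_neg hj]; simp
  simp only [e1] at h
  rw [e2] at h
  exact le_trans (Finset.sum_le_sum_of_subset_of_nonneg Finset.subset_union_left
    fun i _ _ => by positivity) h

theorem memℓp_col (h0 : Q.PosSemidef) (h1 : (1 - Q).PosSemidef) (j : X) :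
    Memℓp (fun i => Q i j) 2 := by
  refine memℓp_gen' (C := 1) fun s => ?_
  have h := sec_le' h0 h1 s {j} (fun _ => 1)
  simpa using h

/-- columns of the matrix -/
noncomputable def col (h0 : Q.PosSemidef) (h1 : (1 - Q).PosSemidef) (j : X) : L2 X :=
  ⟨fun i => Q i j, memℓp_col h0 h1 j⟩

theorem hasSum_col (h0 : Q.PosSemidef) (h1 : (1 - Q).PosSemidef) (i : X) (x : L2 X) :
    HasSum (fun j => Q i j * x j) ⟪col h0 h1 i, x⟫_ℂ := by
  have h := lp.hasSum_inner (𝕜 := ℂ) (col h0 h1 i) x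
  have e : (fun j => Q i j * x j) = fun j => ⟪(col h0 h1 i : X → ℂ) j, x j⟫_ℂ := by
    funext j
    have hQ : star (Q j i) = Q i j := h0.1.apply i j
    have : ⟪Q j i, x j⟫_ℂ = x j * star (Q j i) := rfl
    show _ = ⟪Q j i, x j⟫_ℂ
    rw [this, hQ, mul_comm]
  rw [e]
  exact h

theorem sum_inner_col_le (h0 : Q.PosSemidef) (h1 : (1 - Q).PosSemidef) (G : Finset X) (x : L2 X) :
    ∑ i ∈ G, ‖⟪col h0 h1 i, x⟫_ℂ‖ ^ 2 ≤ ‖x‖ ^ 2 := by
  have ht : Tendsto (fun F : Finset X => ∑ i ∈ G, ‖∑ j ∈ F, Q i j * x j‖ ^ 2) atTop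
      (𝓝 (∑ i ∈ G, ‖⟪col h0 h1 i, x⟫_ℂ‖ ^ 2)) :=
    tendsto_finsetSum G fun i _ => ((hasSum_col h0 h1 i x).norm).pow 2
  refine le_of_tendsto ht (Eventually.of_forall fun F => ?_)
  refine (sec_le' h0 h1 G F _).trans ?_
  exact sum_le_hasSum F (fun i _ => by positivity) (hasSum_norm_sq x)

/-- the operator of a matrix contraction -/
noncomputable def op (h0 : Q.PosSemidef) (h1 : (1 - Q).PosSemidef) : L2 X →L[ℂ] L2 X :=
  LinearMap.mkContinuous
    { toFun := fun x => ⟨fun i => ⟪col h0 h1 i, x⟫_ℂ, memℓp_gen' (C := ‖x‖ ^ 2) fun s => by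
        simpa using sum_inner_col_le h0 h1 s x⟩
      map_add' := fun x y => by
        ext i
        show ⟪col h0 h1 i, x + y⟫_ℂ = ⟪col h0 h1 i, x⟫_ℂ + ⟪col h0 h1 i, y⟫_ℂ
        exact inner_add_right _ _ _
      map_smul' := fun a x => by
        ext i
        show ⟪col h0 h1 i, a • x⟫_ℂ = a * ⟪col h0 h1 i, x⟫_ℂ
        exact inner_smul_right _ _ _ } 1 (fun x => by
      rw [one_mul]
      refine lp.norm_le_of_forall_sum_le (by norm_num) (norm_nonneg _) fun s => ?_
      simpa using sum_inner_col_le h0 h1 s x)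

theorem op_apply (h0 : Q.PosSemidef) (h1 : (1 - Q).PosSemidef) (x : L2 X) (i : X) :
    (op h0 h1 x : X → ℂ) i = ⟪col h0 h1 i, x⟫_ℂ := rfl

theorem op_delta (h0 : Q.PosSemidef) (h1 : (1 - Q).PosSemidef) (i j : X) :
    (op h0 h1 (delta j) : X → ℂ) i = Q i j := by
  rw [op_apply]
  refine (hasSum_col h0 h1 i (delta j)).unique ?_
  have := hasSum_ite_eq j (Q i j)
  convert this using 2 with k
  rw [delta_apply]
  by_cases hk : k = j
  · subst hk; simp
  · simp [hk]

theorem delta_eq_single (j : X) : (delta j : L2 X) = lp.single 2 j 1 := by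
  ext i
  rw [delta_apply, lp.single_apply, Pi.single_apply]
  congr!

/-- a bounded operator with positive semidefinite matrix is positive -/
theorem isPositive_of_posSemidef {T : L2 X →L[ℂ] L2 X} {M : Matrix X X ℂ} (hM : M.PosSemidef)
    (h : ∀ i j, (T (delta j) : X → ℂ) i = M i j) : T.IsPositive := by
  have key : ∀ x : L2 X, 0 ≤ ⟪x, T x⟫_ℂ := by
    intro x
    have hx : HasSum (fun i : X => lp.single 2 i (x i : ℂ)) x := lp.hasSum_single (by norm_num) x
    have ht : Tendsto (fun F : Finset X => ⟪∑ i ∈ F, lp.single 2 i (x i : ℂ),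
        T (∑ i ∈ F, lp.single 2 i (x i : ℂ))⟫_ℂ) atTop (𝓝 ⟪x, T x⟫_ℂ) :=
      Filter.Tendsto.inner hx ((T.continuous.tendsto x).comp hx)
    refine ge_of_tendsto ht (Eventually.of_forall fun F => ?_)
    have a0 := (hM.submatrix (fun y : F => (y : X))).dotProduct_mulVec_nonneg (fun y : F => x y)
    refine le_of_le_of_eq a0 ?_
    rw [sum_inner, dotProduct, ← Finset.sum_coe_sort F]
    refine Finset.sum_congr rfl fun i _ => ?_
    rw [map_sum, inner_sum, Matrix.mulVec, dotProduct, ← Finset.sum_coe_sort F, Finset.mul_sum]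
    refine Finset.sum_congr rfl fun j _ => ?_
    have e1 : (lp.single 2 (j : X) (x j : ℂ) : L2 X) = (x j : ℂ) • delta (j : X) := by
      rw [delta_eq_single, ← lp.single_smul, smul_eq_mul, mul_one]
    rw [e1, map_smul, inner_smul_right, lp.inner_single_left, h]
    have : ⟪(x i : ℂ), M i j⟫_ℂ = M i j * star (x i : ℂ) := rfl
    rw [this]
    simp only [Matrix.submatrix_apply, Pi.star_apply]
    ring
  rw [ContinuousLinearMap.isPositive_iff_complex]
  intro x
  have h1 := key x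
  rw [← inner_conj_symm] at h1
  rw [Complex.le_def] at h1
  simp only [Complex.zero_re, Complex.conj_re, Complex.zero_im, Complex.conj_im] at h1
  refine ⟨?_, h1.1⟩
  apply Complex.ext
  · simp
  · simp only [Complex.ofReal_im]
    linarith [h1.2]

theorem op_isPositive (h0 : Q.PosSemidef) (h1 : (1 - Q).PosSemidef) : (op h0 h1).IsPositive :=
  isPositive_of_posSemidef h0 fun i j => op_delta h0 h1 i j

theorem one_sub_op_isPositive (h0 : Q.PosSemidef) (h1 : (1 - Q).PosSemidef) :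
    (1 - op h0 h1).IsPositive := by
  refine isPositive_of_posSemidef h1 fun i j => ?_
  show (delta j : X → ℂ) i - (op h0 h1 (delta j) : X → ℂ) i = _
  rw [op_delta, delta_apply, Matrix.sub_apply, Matrix.one_apply]
  congr!

/-- **Bridge.** A matrix contraction has a root. -/
theorem exists_root_of_matrix (h0 : Q.PosSemidef) (h1 : (1 - Q).PosSemidef) :
    ∃ S : L2 X →L[ℂ] L2 X, IsRoot S ∧ ∀ i j, (S (S (delta j)) : X → ℂ) i = Q i j := by
  obtain ⟨S, hS, hSS⟩ := exists_root (op_isPositive h0 h1) (one_sub_op_isPositive h0 h1)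
  refine ⟨S, hS, fun i j => ?_⟩
  rw [← op_delta h0 h1 i j, ← hSS]
  rfl

theorem exists_root_inner (h0 : Q.PosSemidef) (h1 : (1 - Q).PosSemidef) :
    ∃ S : L2 X →L[ℂ] L2 X, IsRoot S ∧
      ∀ i j, ⟪(lp.single 2 i 1 : L2 X), S (S (lp.single 2 j 1))⟫_ℂ = Q i j := by
  obtain ⟨S, hS, h⟩ := exists_root_of_matrix h0 h1
  refine ⟨S, hS, fun i j => ?_⟩
  rw [lp.inner_single_left, ← delta_eq_single, h]
  have : ⟪(1 : ℂ), Q i j⟫_ℂ = Q i j * star (1 : ℂ) := rfl
  rw [this, star_one, mul_one]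

/-- the matrix definition of determinantal measures implies the operator definition -/
theorem isDeterminantal_of_matrix {μ : Measure (X → Bool)} (h : Det.IsDeterminantal μ) :
    H71.IsDeterminantal μ := by
  obtain ⟨Q, ⟨h0, h1⟩, hp, hT⟩ := h
  refine ⟨hp, op h0 h1, op_isPositive h0 h1, one_sub_op_isPositive h0 h1, fun T => ?_⟩
  rw [hT T]
  have e : Q.submatrix (fun x : T => (x : X)) (fun x : T => (x : X)) =
      Matrix.of fun e f : T => (op h0 h1 (delta (f : X)) : X → ℂ) e := by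
    ext i j
    exact (op_delta h0 h1 i j).symm
  rw [e]
  congr!

end Vale.Agent.P143.H300
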